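import Vale.Agent.P087.FinalDefs

/-! P087: definitions for the strengthened statement `FreeGroupFactorGap` (helper847). Everything
else in the statement (`chi`, `chiStar`, `law`, ...) is in `Vale/Agent/P087/FinalDefs.lean`. -/

namespace Vale.Agent.P087.H847

open Vale.Agent.P087.FD

/-- `T` is a free family of semicircular elements of variance `1`. -/
structure IsFreeSemicircular {A ι : Type} [Ring A] [StarRing A] [Algebra ℂ A]
    (τ : A →ₗ[ℂ] ℂ) (T : ι → A) : Prop where
  selfAdjoint : ∀ j, IsSelfAdjoint (T j)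
  even : ∀ j k, τ (T j ^ (2 * k)) = (catalan k : ℂ)
  odd : ∀ j k, τ (T j ^ (2 * k + 1)) = 0
  free : FreeFamily τ (fun j => Algebra.adjoin ℂ {T j})

/-- `X` is obtained from `T` by a scaling followed by one cubic shear: for a set `D` of indices,
`X_i = c T_i` for `i ∈ D`, and `X_i = T_i + θ T_a T_b T_a` with `a ≠ b` in `D` (depending on `i`)
for `i ∉ D`. -/
def IsCubicShear {A : Type} [Ring A] [Algebra ℂ A] {n : ℕ} (X T : Fin n → A) : Prop :=
  ∃ (c θ : ℝ) (D : Set (Fin n)), 0 < c ∧ 0 < θ ∧ (∀ i ∈ D, X i = (c : ℂ) • T i) ∧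
    ∀ i ∉ D, ∃ a ∈ D, ∃ b ∈ D, a ≠ b ∧ X i = T i + (θ : ℂ) • (T a * T b * T a)

/-- Some von Neumann algebra `M` on the Hilbert space `H`, with a faithful normal tracial state
`τ`, contains a free semicircular `n`-tuple `T`, a self-adjoint `n`-tuple `X` and free
semicirculars `S`, free from `X`, such that `X` is a cubic shear of `T`, `X` and `T` generate the
same algebra (so `X` generates a copy of `L(F_n)`), and
`-∞ < χ(X)`, `χ(X) + √n < χ^*(X)`. -/
inductive FreeGroupGap (H : Type) [NormedAddCommGroup H] [InnerProductSpace ℂ H]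
    [CompleteSpace H] (n : ℕ) : Prop
  | intro (M : VonNeumannAlgebra H) (τ : M.toStarSubalgebra →ₗ[ℂ] ℂ)
      (T X S : Fin n → M.toStarSubalgebra) :
      IsFaithfulTrace τ → IsNormal M τ → IsFreeSemicircular τ T → (∀ i, IsSelfAdjoint (X i)) →
      IsCubicShear X T → Algebra.adjoin ℂ (Set.range X) = Algebra.adjoin ℂ (Set.range T) →
      IsFreeSemicircularFrom τ X S → ⊥ < chi (law τ X) →
      chi (law τ X) + ((Real.sqrt n : ℝ) : EReal) <
        chiStar (fun t => law τ (fun i => X i + ((Real.sqrt t : ℝ) : ℂ) • S i)) →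
      FreeGroupGap H n

end Vale.Agent.P087.H847
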