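import Vale.Agent.P087.Bdl.B2

/-! P087, strengthening (helper847): passing to sub-tuples. Microstates free entropy. -/

open MeasureTheory Filter
open scoped ENNReal NNReal

namespace Vale.Agent.P087.H847

open Vale.Agent.P087

theorem sum_sq_le_of_norm {k : ℕ} (x : Fin k → Fin k → ℝ) (R : ℝ) (hR : 0 ≤ R)
    (h : ‖Matrix.toEuclideanCLM (n := Fin k) (𝕜 := ℂ) (herm k x)‖ ≤ R) :
    ∑ a, ∑ b, x a b ^ 2 ≤ k * R ^ 2 := by
  have h1 : FD.NormLe (herm k x) R := (FD.normLe_iff _ R hR).2 h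
  have hH := herm_isHermitian k x
  have h2 : ∀ b : Fin k, ∑ a, ‖herm k x a b‖ ^ 2 ≤ R ^ 2 := by
    intro b
    have := h1 (Pi.single b 1)
    simpa [Matrix.mulVec_single_one, Pi.single_apply, Finset.sum_ite_eq, apply_ite] using this
  have h3 : (((∑ a, ∑ b, x a b ^ 2 : ℝ)) : ℂ) = ((∑ b, ∑ a, ‖herm k x a b‖ ^ 2 : ℝ) : ℂ) := by
    rw [← trace_herm_sq, Matrix.trace]
    push_cast
    refine Finset.sum_congr rfl fun b _ => ?_
    rw [Matrix.diag_apply, Matrix.mul_apply]
    refine Finset.sum_congr rfl fun a _ => ?_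
    have h4 : herm k x b a = (starRingEnd ℂ) (herm k x a b) := by
      have := congrFun (congrFun hH b) a
      rw [Matrix.conjTranspose_apply] at this
      exact this.symm
    rw [h4, ← Complex.normSq_eq_conj_mul_self, Complex.normSq_eq_norm_sq]
    push_cast
    rfl
  have h5 : ∑ a, ∑ b, x a b ^ 2 = ∑ b, ∑ a, ‖herm k x a b‖ ^ 2 := by exact_mod_cast h3
  rw [h5]
  calc ∑ b, ∑ a, ‖herm k x a b‖ ^ 2 ≤ ∑ _b : Fin k, R ^ 2 := Finset.sum_le_sum fun b _ => h2 b
    _ = k * R ^ 2 := by simp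

theorem volume_micro_subtype {ι : Type} [Fintype ι] [DecidableEq ι] (p : ι → Prop)
    [DecidablePred p] (μ : List ι → ℂ) (R : ℝ) (hR : 0 < R) (M k : ℕ) (hk : 0 < k) (ε : ℝ) :
    volume (microstates μ R M k ε) ≤
      volume (microstates (fun w : List {i // p i} => μ (w.map Subtype.val)) R M k ε) *
      ENNReal.ofReal ((2 * Real.pi * Real.exp 1 * R ^ 2 / k) ^ ((k : ℝ) ^ 2 / 2))
        ^ (Fintype.card {i // ¬ p i}) := by
  set B : Set (Fin k → Fin k → ℝ) := {x | ∑ a, ∑ b, x a b ^ 2 ≤ k * R ^ 2} with hB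
  set A := microstates (fun w : List {i // p i} => μ (w.map Subtype.val)) R M k ε with hA
  have hmp := volume_preserving_piEquivPiSubtypeProd (fun _ : ι => Fin k → Fin k → ℝ) p
  set e := MeasurableEquiv.piEquivPiSubtypeProd (fun _ : ι => Fin k → Fin k → ℝ) p with he
  have e1 : ∀ x i, (e x).1 i = x i.1 := fun x i => rfl
  have e2 : ∀ x i, (e x).2 i = x i.1 := fun x i => rfl
  have hsub : microstates μ R M k ε ⊆ e ⁻¹' (A ×ˢ (Set.univ.pi fun _ : {i // ¬ p i} => B)) := by
    intro x hx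
    rw [Set.mem_preimage, Set.mem_prod]
    refine ⟨⟨fun j => ?_, fun w hw1 hw2 => ?_⟩, ?_⟩
    · rw [e1]; exact hx.1 _
    · have h := hx.2 (w.map Subtype.val) (by simpa using hw1) (by simpa using hw2)
      rw [List.map_map] at h
      exact h
    · rw [Set.mem_univ_pi]
      intro j
      rw [e2]
      exact sum_sq_le_of_norm _ R hR.le (hx.1 _)
  calc volume (microstates μ R M k ε)
      ≤ _ := measure_mono hsub
    _ = volume (A ×ˢ (Set.univ.pi fun _ : {i // ¬ p i} => B)) := hmp.measure_preimage_equiv _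
    _ = volume A * volume B ^ (Fintype.card {i // ¬ p i}) := by
        rw [Measure.volume_eq_prod, Measure.prod_prod, volume_pi_pi]
        simp
    _ ≤ _ := by
        have h1 := volume_ball_le k hk (R ^ 2) (by positivity)
        gcongr

theorem bot_lt_chi_subtype {ι : Type} [Fintype ι] [DecidableEq ι] (p : ι → Prop)
    [DecidablePred p] (μ : List ι → ℂ) (h : ⊥ < chi μ) :
    ⊥ < chi (fun w : List {i // p i} => μ (w.map Subtype.val)) := by
  unfold chi at h
  rw [lt_iSup_iff] at h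
  obtain ⟨R, h⟩ := h
  rw [lt_iSup_iff] at h
  obtain ⟨hR, h⟩ := h
  obtain ⟨L, -, hL⟩ := EReal.lt_iff_exists_real_btwn.1 h
  set q : ℕ := Fintype.card {i // ¬ p i} with hq
  set n : ℕ := Fintype.card {i // p i} with hn
  have hcard : (Fintype.card ι : ℝ) = n + q := by
    have h1 := Fintype.card_subtype_compl p
    have h2 := Fintype.card_subtype_le p
    have h3 : Fintype.card ι = n + q := by omega
    rw [h3]; push_cast; ring
  set C : ℝ := (q : ℝ) / 2 * Real.log (2 * Real.pi * Real.exp 1 * R ^ 2) with hC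
  refine lt_of_lt_of_le (EReal.bot_lt_coe (L - C)) ?_
  unfold chi
  refine le_iSup₂_of_le R hR ?_
  unfold chiR
  refine le_iInf fun M => le_iInf fun ε => le_iInf fun hε => ?_
  refine le_limsup_of_frequently_le ?_
  have hLM : (L : EReal) < limsup (fun k : ℕ =>
      ((((k : ℝ) ^ 2)⁻¹ : ℝ) : EReal) * ENNReal.log (volume (microstates μ R M k ε))
        + (((Fintype.card ι : ℝ) / 2 * Real.log k : ℝ) : EReal)) atTop := by
    refine lt_of_lt_of_le hL ?_
    unfold chiR
    exact iInf_le_of_le M (iInf_le_of_le ε (iInf_le_of_le hε le_rfl))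
  have hfr := frequently_lt_of_lt_limsup (by isBoundedDefault) hLM
  refine (hfr.and_eventually (eventually_gt_atTop 0)).mono ?_
  rintro k ⟨hk1, hk⟩
  have hkR : (0 : ℝ) < k := by exact_mod_cast hk
  have hk2 : (0 : ℝ) < ((k : ℝ) ^ 2)⁻¹ := by positivity
  have hv := volume_micro_subtype p μ R hR M k hk ε
  set Vf := volume (microstates μ R M k ε) with hVf
  set Vs := volume (microstates (fun w : List {i // p i} => μ (w.map Subtype.val)) R M k ε) with hVs
  set b := (2 * Real.pi * Real.exp 1 * R ^ 2 / k) ^ ((k : ℝ) ^ 2 / 2) with hb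
  have hb0 : 0 < b := by positivity
  rw [← hq] at hv
  rcases eq_or_ne Vs 0 with h0 | h0
  · exfalso
    rw [h0, zero_mul, nonpos_iff_eq_zero] at hv
    rw [hv, ENNReal.log_zero, EReal.coe_mul_bot_of_pos hk2] at hk1
    simp at hk1
  rcases eq_or_ne Vs ⊤ with ht | ht
  · rw [ht, ENNReal.log_top, EReal.coe_mul_top_of_pos hk2, EReal.top_add_coe]
    exact le_top
  obtain ⟨s, hs, hsV⟩ : ∃ s : ℝ, 0 < s ∧ Vs = ENNReal.ofReal s :=
    ⟨Vs.toReal, ENNReal.toReal_pos h0 ht, (ENNReal.ofReal_toReal ht).symm⟩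
  rw [hsV, ← ENNReal.ofReal_pow hb0.le, ← ENNReal.ofReal_mul hs.le] at hv
  have hl := ENNReal.log_monotone hv
  rw [ENNReal.log_ofReal_of_pos (by positivity)] at hl
  rw [hsV, ENNReal.log_ofReal_of_pos hs]
  have h3 := lt_of_lt_of_le hk1 (add_le_add_left (mul_le_mul_of_nonneg_left hl
    (EReal.coe_nonneg.2 hk2.le)) _)
  rw [← EReal.coe_mul, ← EReal.coe_add, EReal.coe_lt_coe_iff] at h3
  rw [← EReal.coe_mul, ← EReal.coe_add, EReal.coe_le_coe_iff]
  have hlog : Real.log (s * b ^ q) = Real.log s + q * ((k : ℝ) ^ 2 / 2 *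
      (Real.log (2 * Real.pi * Real.exp 1 * R ^ 2) - Real.log k)) := by
    rw [Real.log_mul (by positivity) (by positivity), Real.log_pow, hb,
      Real.log_rpow (by positivity), Real.log_div (by positivity) (by positivity)]
  rw [hlog] at h3
  have h4 : ((k : ℝ) ^ 2)⁻¹ * (Real.log s + q * ((k : ℝ) ^ 2 / 2 *
      (Real.log (2 * Real.pi * Real.exp 1 * R ^ 2) - Real.log k)))
      + (Fintype.card ι : ℝ) / 2 * Real.log k =
      ((k : ℝ) ^ 2)⁻¹ * Real.log s + (n : ℝ) / 2 * Real.log k + C := by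
    rw [hcard, hC]
    field_simp
    ring
  rw [h4] at h3
  linarith

/-- `χ > -∞` passes to sub-tuples. -/
theorem bot_lt_chi_inj {ι κ : Type} [Fintype ι] [DecidableEq ι] [Fintype κ] [DecidableEq κ]
    (e : κ → ι) (he : Function.Injective e) (μ : List ι → ℂ) (h : ⊥ < chi μ) :
    ⊥ < chi (fun w : List κ => μ (w.map e)) := by
  have h1 := bot_lt_chi_subtype (fun i => ∃ j, e j = i) μ h
  let E : κ ≃ {i // ∃ j, e j = i} := Equiv.ofBijective (fun j => ⟨e j, j, rfl⟩)
    ⟨fun a b hab => he (congrArg Subtype.val hab), fun ⟨i, j, hj⟩ => ⟨j, Subtype.ext hj⟩⟩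
  have h2 := chi_reindex E (fun w : List {i // ∃ j, e j = i} => μ (w.map Subtype.val))
  have h3 : ∀ w : List κ, (w.map E).map Subtype.val = w.map e := by
    intro w
    rw [List.map_map]
    rfl
  simp only [h3] at h2
  rw [h2]
  exact h1

/-! ### Upper bound -/

variable {κ : Type} [Fintype κ] [DecidableEq κ] {m : ℕ}

theorem micro_diag' {k : ℕ} {c θ R ε : ℝ} (e : κ → Idx m) (hk : 0 < k)
    {x : κ → Fin k → Fin k → ℝ}
    (hx : x ∈ microstates (fun w : List κ => lawX m c θ 0 (w.map e)) R 6 k ε) (a : Fin m)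
    (j : κ) (hj : e j = (a, a)) :
    ∑ i, ∑ l, x j i l ^ 2 ≤ k * (c ^ 2 + ε) := by
  have hk' : (0 : ℝ) < k := by exact_mod_cast hk
  have h := hx.2 [j, j] (by simp) (by simp)
  simp only [List.map_cons, List.map_nil, hj] at h
  rw [lawX_diag] at h
  simp only [List.prod_cons, List.prod_nil, mul_one] at h
  rw [trace_herm_sq] at h
  have h' : |(k : ℝ)⁻¹ * (∑ i, ∑ l, x j i l ^ 2) - c ^ 2| < ε := by
    rw [← Real.norm_eq_abs, ← Complex.norm_real]
    push_cast
    push_cast at h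
    exact h
  have h2 := (abs_lt.mp h').2
  have h3 : (k : ℝ)⁻¹ * (∑ i, ∑ l, x j i l ^ 2) ≤ c ^ 2 + ε := by linarith
  rw [inv_mul_le_iff₀ hk'] at h3
  exact h3

theorem micro_off' {k : ℕ} {c θ R ε : ℝ} (e : κ → Idx m) (hk : 0 < k) (hc : 0 < c)
    {x : κ → Fin k → Fin k → ℝ}
    (hx : x ∈ microstates (fun w : List κ => lawX m c θ 0 (w.map e)) R 6 k ε) (a b : Fin m)
    (hab : a ≠ b) (j ja jb : κ) (hj : e j = (a, b)) (hja : e ja = (a, a)) (hjb : e jb = (b, b)) :
    ∑ i, ∑ l, (x j - shear k (θ / c ^ 3) (x ja) (x jb)) i l ^ 2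
      ≤ k * (1 + (1 + 2 * |θ / c ^ 3| + (θ / c ^ 3) ^ 2) * ε) := by
  have hk' : (0 : ℝ) < k := by exact_mod_cast hk
  have h1 := hx.2 [j, j] (by simp) (by simp)
  have h2 := hx.2 [j, ja, jb, ja] (by simp) (by simp)
  have h3 := hx.2 [ja, jb, ja, j] (by simp) (by simp)
  have h4 := hx.2 [ja, jb, ja, ja, jb, ja] (by simp) (by simp)
  simp only [List.map_cons, List.map_nil, hj, hja, hjb] at h1 h2 h3 h4
  rw [lawX_off m c θ a b hab] at h1
  rw [lawX_off4 m c θ a b hab] at h2
  rw [lawX_off4' m c θ a b hab] at h3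
  rw [lawX_off6 m c θ a b hab] at h4
  simp only [List.prod_cons, List.prod_nil, mul_one] at h1 h2 h3 h4
  have h := norm_comb (s := θ / c ^ 3) h1 h2 h3 h4
  set s := θ / c ^ 3 with hs
  have hθ : θ = s * c ^ 3 := by rw [hs]; field_simp
  set A := herm k (x ja) with hA
  set B := herm k (x jb) with hB
  set X := herm k (x j) with hX
  have key : ((k : ℂ)⁻¹ * (X * X).trace - s * ((k : ℂ)⁻¹ * (X * (A * (B * A))).trace)
      - s * ((k : ℂ)⁻¹ * (A * (B * (A * X))).trace)
      + (s : ℂ) ^ 2 * ((k : ℂ)⁻¹ * (A * (B * (A * (A * (B * A))))).trace))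
      = (k : ℂ)⁻¹ * ((∑ i, ∑ l, (x j - shear k s (x ja) (x jb)) i l ^ 2 : ℝ) : ℂ) := by
    rw [← trace_herm_sq, herm_sub, herm_shear, ← hA, ← hB, ← hX]
    have : (X - (s : ℂ) • (A * B * A)) * (X - (s : ℂ) • (A * B * A))
        = X * X - (s : ℂ) • (X * (A * (B * A))) - (s : ℂ) • (A * (B * (A * X)))
          + ((s : ℂ) ^ 2) • (A * (B * (A * (A * (B * A))))) := by
      simp only [sub_mul, mul_sub, Matrix.smul_mul, Matrix.mul_smul, Matrix.mul_assoc, smul_smul,
        pow_two]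
      abel
    rw [this]
    simp only [Matrix.trace_add, Matrix.trace_sub, Matrix.trace_smul, smul_eq_mul]
    ring
  have hm : (((θ ^ 2 + 1 : ℝ) : ℂ) - s * ((θ * c ^ 3 : ℝ) : ℂ) - s * ((θ * c ^ 3 : ℝ) : ℂ)
      + (s : ℂ) ^ 2 * ((c ^ 6 : ℝ) : ℂ)) = ((1 : ℝ) : ℂ) := by
    rw [hθ]; push_cast; ring
  rw [key, hm] at h
  have h' : |(k : ℝ)⁻¹ * (∑ i, ∑ l, (x j - shear k s (x ja) (x jb)) i l ^ 2) - 1|
      ≤ (1 + 2 * |s| + s ^ 2) * ε := by
    rw [← Real.norm_eq_abs, ← Complex.norm_real]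
    push_cast
    push_cast at h
    exact h
  have h2 := (abs_le.mp h').2
  have h3 : (k : ℝ)⁻¹ * (∑ i, ∑ l, (x j - shear k s (x ja) (x jb)) i l ^ 2)
      ≤ 1 + (1 + 2 * |s| + s ^ 2) * ε := by linarith
  rw [inv_mul_le_iff₀ hk'] at h3
  exact h3

theorem card_diag' (e : κ → Idx m) (he : Function.Injective e) (d : Fin m → κ)
    (hd : ∀ a, e (d a) = (a, a)) : Fintype.card {j : κ // (e j).1 = (e j).2} = m := by
  have e' : {j : κ // (e j).1 = (e j).2} ≃ Fin m :=
    { toFun := fun j => (e j.1).1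
      invFun := fun a => ⟨d a, by rw [hd]⟩
      left_inv := by
        rintro ⟨j, h⟩
        apply Subtype.ext
        apply he
        show e (d (e j).1) = e j
        rw [hd]
        exact Prod.ext rfl h
      right_inv := fun a => by
        show (e (d a)).1 = a
        rw [hd] }
  rw [Fintype.card_congr e', Fintype.card_fin]

noncomputable def shearMap' (e : κ → Idx m) (d : Fin m → κ) (hd : ∀ a, e (d a) = (a, a)) (k : ℕ)
    (s : ℝ) (u : {j : κ // (e j).1 = (e j).2} → Fin k → Fin k → ℝ) :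
    {j : κ // ¬ (e j).1 = (e j).2} → Fin k → Fin k → ℝ := fun j =>
  shear k s (u ⟨d (e j.1).1, by rw [hd]⟩) (u ⟨d (e j.1).2, by rw [hd]⟩)

theorem continuous_shearMap' (e : κ → Idx m) (d : Fin m → κ) (hd : ∀ a, e (d a) = (a, a)) (k : ℕ)
    (s : ℝ) : Continuous (shearMap' e d hd k s) := by
  refine continuous_pi fun j => ?_
  have h1 : Continuous (fun u : ({j : κ // (e j).1 = (e j).2} → Fin k → Fin k → ℝ) =>
      (u ⟨d (e j.1).1, by rw [hd]⟩, u ⟨d (e j.1).2, by rw [hd]⟩)) :=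
    Continuous.prodMk (continuous_apply _) (continuous_apply _)
  have h2 := (continuous_shear k s).comp h1
  simp only [Function.comp_def] at h2
  simp only [shearMap']
  exact h2

theorem volume_micro_le' {k : ℕ} {c θ R ε : ℝ} (e : κ → Idx m) (he : Function.Injective e)
    (d : Fin m → κ) (hd : ∀ a, e (d a) = (a, a)) (hk : 0 < k) (hc : 0 < c) (hε : 0 < ε) :
    volume (microstates (fun w : List κ => lawX m c θ 0 (w.map e)) R 6 k ε) ≤
      ENNReal.ofReal ((2 * Real.pi * Real.exp 1 * (c ^ 2 + ε) / k) ^ ((k : ℝ) ^ 2 / 2)) ^ m *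
      ENNReal.ofReal ((2 * Real.pi * Real.exp 1
        * (1 + (1 + 2 * |θ / c ^ 3| + (θ / c ^ 3) ^ 2) * ε) / k) ^ ((k : ℝ) ^ 2 / 2))
        ^ (Fintype.card κ - m) := by
  set K := (1 + 2 * |θ / c ^ 3| + (θ / c ^ 3) ^ 2) with hK
  have hK0 : 0 < K := by positivity
  set B1 : Set (Fin k → Fin k → ℝ) := {x | ∑ a, ∑ b, x a b ^ 2 ≤ k * (c ^ 2 + ε)} with hB1
  set B2 : Set (Fin k → Fin k → ℝ) := {x | ∑ a, ∑ b, x a b ^ 2 ≤ k * (1 + K * ε)} with hB2
  have mB1 : MeasurableSet B1 := by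
    apply measurableSet_le
    · fun_prop
    · fun_prop
  have mB2 : MeasurableSet B2 := by
    apply measurableSet_le
    · fun_prop
    · fun_prop
  set F := shearMap' e d hd k (θ / c ^ 3) with hFdef
  have hF : Continuous F := continuous_shearMap' e d hd k _
  have hmp := volume_preserving_piEquivPiSubtypeProd
    (fun _ : κ => Fin k → Fin k → ℝ) (fun j => (e j).1 = (e j).2)
  set E := MeasurableEquiv.piEquivPiSubtypeProd
        (fun _ : κ => Fin k → Fin k → ℝ) (fun j => (e j).1 = (e j).2) with hE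
  have e1 : ∀ x i, (E x).1 i = x i.1 := fun x i => rfl
  have e2 : ∀ x i, (E x).2 i = x i.1 := fun x i => rfl
  have hsub : microstates (fun w : List κ => lawX m c θ 0 (w.map e)) R 6 k ε ⊆ E ⁻¹'
      {p | (∀ i, p.1 i ∈ B1) ∧ ∀ j, p.2 j - F p.1 j ∈ B2} := by
    intro x hx
    rw [Set.mem_preimage, Set.mem_ofPred_eq]
    constructor
    · rintro ⟨j, h⟩
      rw [e1, hB1, Set.mem_ofPred_eq]
      exact micro_diag' e hk hx (e j).1 j (Prod.ext rfl h.symm)
    · rintro ⟨j, h⟩
      rw [e2, hB2, Set.mem_ofPred_eq]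
      have : F (E x).1 ⟨j, h⟩ = shear k (θ / c ^ 3) (x (d (e j).1)) (x (d (e j).2)) := rfl
      rw [this]
      exact micro_off' e hk hc hx (e j).1 (e j).2 h j _ _ rfl (hd _) (hd _)
  have hcd := card_diag' e he d hd
  calc volume (microstates (fun w : List κ => lawX m c θ 0 (w.map e)) R 6 k ε)
      ≤ _ := measure_mono hsub
    _ = volume {p : ({j : κ // (e j).1 = (e j).2} → Fin k → Fin k → ℝ) ×
          ({j : κ // ¬ (e j).1 = (e j).2} → Fin k → Fin k → ℝ) |
          (∀ i, p.1 i ∈ B1) ∧ ∀ j, p.2 j - F p.1 j ∈ B2} := hmp.measure_preimage_equiv _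
    _ ≤ (volume B1) ^ (Fintype.card {j : κ // (e j).1 = (e j).2})
        * (volume B2) ^ (Fintype.card {j : κ // ¬ (e j).1 = (e j).2}) :=
        volume_shear_le F hF B1 B2 mB1 mB2
    _ ≤ _ := by
        rw [Fintype.card_subtype_compl, hcd]
        have h1 := volume_ball_le k hk (c ^ 2 + ε) (by positivity)
        have h2 := volume_ball_le k hk (1 + K * ε) (by positivity)
        gcongr

theorem chi_sub_le (e : κ → Idx m) (he : Function.Injective e)
    (d : Fin m → κ) (hd : ∀ a, e (d a) = (a, a)) (c θ : ℝ) (hc : 0 < c) :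
    chi (fun w : List κ => lawX m c θ 0 (w.map e)) ≤
      (((m : ℝ) / 2 * Real.log (2 * Real.pi * Real.exp 1 * c ^ 2)
        + ((Fintype.card κ : ℝ) - m) / 2 * Real.log (2 * Real.pi * Real.exp 1) : ℝ) : EReal) := by
  set K := (1 + 2 * |θ / c ^ 3| + (θ / c ^ 3) ^ 2) with hK
  have hK0 : 0 < K := by positivity
  have hmn : m ≤ Fintype.card κ := by
    rw [← card_diag' e he d hd]
    exact Fintype.card_subtype_le _
  let C : ℝ → ℝ := fun ε => (m : ℝ) / 2 * Real.log (2 * Real.pi * Real.exp 1 * (c ^ 2 + ε))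
        + ((Fintype.card κ : ℝ) - m) / 2 * Real.log (2 * Real.pi * Real.exp 1 * (1 + K * ε))
  have hC : ∀ R ε : ℝ, 0 < ε → chiR (fun w : List κ => lawX m c θ 0 (w.map e)) R ≤
      (C ε : EReal) := by
    intro R ε hε
    apply iInf_le_of_le 6
    apply iInf_le_of_le ε
    apply iInf_le_of_le hε
    apply limsup_le_of_le (by isBoundedDefault)
    filter_upwards [eventually_gt_atTop 0] with k hk
    have hk' : (0 : ℝ) < k := by exact_mod_cast hk
    have hv := volume_micro_le' (θ := θ) (R := R) e he d hd hk hc hε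
    rw [← hK] at hv
    set V1 := (2 * Real.pi * Real.exp 1 * (c ^ 2 + ε) / k) ^ ((k : ℝ) ^ 2 / 2) with hV1
    set V2 := (2 * Real.pi * Real.exp 1 * (1 + K * ε) / k) ^ ((k : ℝ) ^ 2 / 2) with hV2
    have p1 : 0 < V1 := by positivity
    have p2 : 0 < V2 := by positivity
    rw [← ENNReal.ofReal_pow p1.le, ← ENNReal.ofReal_pow p2.le,
      ← ENNReal.ofReal_mul (by positivity)] at hv
    have hl := ENNReal.log_monotone hv
    rw [ENNReal.log_ofReal_of_pos (by positivity)] at hl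
    have hlog : Real.log (V1 ^ m * V2 ^ (Fintype.card κ - m)) =
        (m : ℝ) * ((k : ℝ) ^ 2 / 2 * (Real.log (2 * Real.pi * Real.exp 1 * (c ^ 2 + ε))
          - Real.log k))
        + ((Fintype.card κ : ℝ) - m) * ((k : ℝ) ^ 2 / 2 * (Real.log (2 * Real.pi * Real.exp 1
          * (1 + K * ε)) - Real.log k)) := by
      rw [Real.log_mul (by positivity) (by positivity), Real.log_pow, Real.log_pow, hV1, hV2,
        Real.log_rpow (by positivity), Real.log_rpow (by positivity),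
        Real.log_div (by positivity) (by positivity), Real.log_div (by positivity) (by positivity),
        Nat.cast_sub hmn]
    rw [hlog] at hl
    calc ((((k : ℝ) ^ 2)⁻¹ : ℝ) : EReal)
            * ENNReal.log (volume (microstates (fun w : List κ => lawX m c θ 0 (w.map e)) R 6 k ε))
            + (((Fintype.card κ : ℝ) / 2 * Real.log k : ℝ) : EReal)
        ≤ ((((k : ℝ) ^ 2)⁻¹ : ℝ) : EReal) * (((m : ℝ) * ((k : ℝ) ^ 2 / 2
            * (Real.log (2 * Real.pi * Real.exp 1 * (c ^ 2 + ε)) - Real.log k))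
        + ((Fintype.card κ : ℝ) - m) * ((k : ℝ) ^ 2 / 2 * (Real.log (2 * Real.pi * Real.exp 1
          * (1 + K * ε)) - Real.log k)) : ℝ) : EReal)
            + (((Fintype.card κ : ℝ) / 2 * Real.log k : ℝ) : EReal) := by
          gcongr
      _ = (C ε : EReal) := by
          rw [← EReal.coe_mul, ← EReal.coe_add]
          congr 1
          simp only [C]
          field_simp
          ring
  apply iSup_le
  intro R
  apply iSup_le
  intro hR
  have ht : Tendsto (fun ε => (C ε : EReal)) (nhdsWithin 0 (Set.Ioi 0)) (nhds (C 0 : EReal)) := by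
    apply (continuous_coe_real_ereal.tendsto _).comp
    apply Tendsto.mono_left _ nhdsWithin_le_nhds
    apply ContinuousAt.tendsto
    simp only [C]
    apply ContinuousAt.add
    · apply ContinuousAt.mul continuousAt_const
      apply ContinuousAt.log
      · fun_prop
      · positivity
    · apply ContinuousAt.mul continuousAt_const
      apply ContinuousAt.log
      · fun_prop
      · positivity
  have h0 : C 0 = (m : ℝ) / 2 * Real.log (2 * Real.pi * Real.exp 1 * c ^ 2)
        + ((Fintype.card κ : ℝ) - m) / 2 * Real.log (2 * Real.pi * Real.exp 1) := by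
    simp [C]
  rw [← h0]
  apply ge_of_tendsto ht
  filter_upwards [self_mem_nhdsWithin] with ε hε
  exact hC R ε hε

end Vale.Agent.P087.H847
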