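import Vale.Agent.P087.Bdl.B2
import Vale.Agent.P087.H847.Defs

/-! P087, strengthening (helper847): the sub-tuples in the free group factor. -/

open scoped InnerProductSpace

namespace Vale.Agent.P087.H847

open Vale.Agent.P087 Vale.Agent.P087.VN

/-- the free semicircular family `T` -/
noncomputable def tupT (m : ℕ) (i : Idx m) : (vna (Big m)).toStarSubalgebra :=
  if i.1 = i.2 then gen (Sum.inl i.1 : Big m) else gen (Sum.inr (Sum.inl i) : Big m)

/-- letter of `T i` -/
def letT {m : ℕ} (i : Idx m) : Big m :=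
  if i.1 = i.2 then Sum.inl i.1 else Sum.inr (Sum.inl i)

theorem tupT_eq (m : ℕ) (i : Idx m) : tupT m i = gen (letT i) := by
  unfold tupT letT
  split_ifs <;> rfl

theorem letT_inj {m : ℕ} : Function.Injective (letT (m := m)) := by
  rintro ⟨a, b⟩ ⟨a', b'⟩ h
  unfold letT at h
  by_cases h1 : a = b <;> by_cases h2 : a' = b'
  · subst h1; subst h2
    simpa using h
  · simp [h1, h2] at h
  · simp [h1, h2] at h
  · simpa [h1, h2] using h

theorem free_tupT (m : ℕ) {κ : Type} (e : κ → Idx m) (he : Function.Injective e) :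
    FreeFamily (vac (Big m)) (fun j : κ => Algebra.adjoin ℂ {tupT m (e j)}) := by
  apply freeFamily_of_loc (fun j => {letT (e j)})
  · intro p q hpq
    rw [Set.disjoint_singleton]
    exact fun h => hpq (he (letT_inj h))
  · intro j
    apply adjoin_loc
    intro T hT
    rw [Set.mem_singleton_iff] at hT
    rw [hT, tupT_eq]
    exact semL_locAlg rfl

theorem tupX_diag (m : ℕ) (c θ : ℝ) (a : Fin m) :
    tupX m c θ (a, a) = (c : ℂ) • tupT m (a, a) := by
  unfold tupX tupT
  simp [coef, yw, sig0]

theorem tupX_off (m : ℕ) (c θ : ℝ) (a b : Fin m) (hab : a ≠ b) :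
    tupX m c θ (a, b) = tupT m (a, b) +
      (θ : ℂ) • (tupT m (a, a) * tupT m (b, b) * tupT m (a, a)) := by
  unfold tupX tupT
  simp [coef, yw, sig0, hab, add_comm, mul_assoc]

theorem adjoin_eq {m : ℕ} {κ : Type} (e : κ → Idx m) (d : Fin m → κ) (hd : ∀ a, e (d a) = (a, a))
    (c θ : ℝ) (hc : c ≠ 0) :
    Algebra.adjoin ℂ (Set.range fun j => tupX m c θ (e j)) =
      Algebra.adjoin ℂ (Set.range fun j => tupT m (e j)) := by
  have hcC : (c : ℂ) ≠ 0 := Complex.ofReal_ne_zero.2 hc
  apply le_antisymm
  · apply Algebra.adjoin_le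
    rintro _ ⟨j, rfl⟩
    have hT : ∀ i, tupT m (e i) ∈ Algebra.adjoin ℂ (Set.range fun j => tupT m (e j)) :=
      fun i => Algebra.subset_adjoin ⟨i, rfl⟩
    have hT' : ∀ a, tupT m (a, a) ∈ Algebra.adjoin ℂ (Set.range fun j => tupT m (e j)) := by
      intro a
      rw [← hd a]
      exact hT _
    have hj := hT j
    show tupX m c θ (e j) ∈ _
    rcases hab : e j with ⟨a, b⟩
    by_cases h : a = b
    · subst h
      rw [tupX_diag]
      exact Subalgebra.smul_mem _ (hT' a) _
    · rw [tupX_off m c θ a b h]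
      refine Subalgebra.add_mem _ ?_ (Subalgebra.smul_mem _ (Subalgebra.mul_mem _
        (Subalgebra.mul_mem _ (hT' a) (hT' b)) (hT' a)) _)
      rw [← hab]
      exact hj
  · apply Algebra.adjoin_le
    rintro _ ⟨j, rfl⟩
    have hX : ∀ i, tupX m c θ (e i) ∈ Algebra.adjoin ℂ (Set.range fun j => tupX m c θ (e j)) :=
      fun i => Algebra.subset_adjoin ⟨i, rfl⟩
    have hT' : ∀ a, tupT m (a, a) ∈ Algebra.adjoin ℂ (Set.range fun j => tupX m c θ (e j)) := by
      intro a
      have h1 : tupT m (a, a) = (c : ℂ)⁻¹ • tupX m c θ (e (d a)) := by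
        rw [hd, tupX_diag, smul_smul, inv_mul_cancel₀ hcC, one_smul]
      rw [h1]
      exact Subalgebra.smul_mem _ (hX _) _
    have hj := hX j
    show tupT m (e j) ∈ _
    rcases hab : e j with ⟨a, b⟩
    by_cases h : a = b
    · subst h
      exact hT' a
    · have h1 : tupT m (a, b) = tupX m c θ (e j) -
          (θ : ℂ) • (tupT m (a, a) * tupT m (b, b) * tupT m (a, a)) := by
        rw [hab, tupX_off m c θ a b h, add_sub_cancel_right]
      rw [h1]
      refine Subalgebra.sub_mem _ hj (Subalgebra.smul_mem _ (Subalgebra.mul_mem _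
        (Subalgebra.mul_mem _ (hT' a) (hT' b)) (hT' a)) _)

theorem IsFreeSemicircularFrom_sub {A ι κ : Type} [Ring A] [StarRing A] [Algebra ℂ A]
    {τ : A →ₗ[ℂ] ℂ} {X S : ι → A} (e : κ → ι) (he : Function.Injective e)
    (h : IsFreeSemicircularFrom τ X S) :
    IsFreeSemicircularFrom τ (fun j => X (e j)) (fun j => S (e j)) where
  selfAdjoint j := h.selfAdjoint (e j)
  even j k := h.even (e j) k
  odd j k := h.odd (e j) k
  free := by
    intro n i a ha h0 hne
    refine h.free n (fun k => (i k).map e) a (fun k => ?_) h0 (fun k => ?_)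
    · have hk := ha k
      cases hik : i k with
      | none =>
        rw [hik] at hk
        simp only [Option.elim] at hk
        have hr : Set.range (fun j => X (e j)) ⊆ Set.range X := Set.range_comp_subset_range e X
        simpa [hik] using Algebra.adjoin_mono hr hk
      | some j =>
        rw [hik] at hk
        simpa [hik] using hk
    · intro hcontra
      exact hne k (Option.map_injective he hcontra)

theorem isFreeSemicircular_tupT (m : ℕ) {κ : Type} (e : κ → Idx m) (he : Function.Injective e) :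
    IsFreeSemicircular (vac (Big m)) (fun j => tupT m (e j)) where
  selfAdjoint j := by
    rw [tupT_eq]; exact star_gen _
  even j k := by
    show vac (Big m) (tupT m (e j) ^ (2 * k)) = _
    rw [tupT_eq, vac_gen_pow, if_pos ⟨k, by ring⟩, Nat.mul_div_cancel_left k (by norm_num)]
    simp
  odd j k := by
    show vac (Big m) (tupT m (e j) ^ (2 * k + 1)) = _
    have : ¬ Even (2 * k + 1) := by
      rw [Nat.not_even_iff_odd]
      exact ⟨k, rfl⟩
    rw [tupT_eq, vac_gen_pow, if_neg this]
    simp
  free := free_tupT m e he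

theorem isFreeFrom_tupX (m : ℕ) (c θ : ℝ) :
    IsFreeSemicircularFrom (vac (Big m)) (tupX m c θ) (tupS m) := by
  refine ⟨fun j => star_gen _, ?_, ?_, free_tup m c θ⟩
  · intro j k
    show vac (Big m) (gen _ ^ (2 * k)) = _
    rw [vac_gen_pow, if_pos ⟨k, by ring⟩, Nat.mul_div_cancel_left k (by norm_num)]
    simp
  · intro j k
    show vac (Big m) (gen _ ^ (2 * k + 1)) = _
    have : ¬ Even (2 * k + 1) := by
      rw [Nat.not_even_iff_odd]
      exact ⟨k, rfl⟩
    rw [vac_gen_pow, if_neg this]
    simp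

end Vale.Agent.P087.H847
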