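import Vale.Agent.P087.H847.SubA
import Vale.Agent.P087.H847.SubB
import Vale.Agent.P087.H847.SubC

/-! P087, strengthening (helper847): every `n ≥ n₀`, generators of the free group factor. -/

open MeasureTheory Filter
open scoped ENNReal NNReal

namespace Vale.Agent.P087.H847

open Vale.Agent.P087 Vale.Agent.P087.VN

theorem log_25_lt' : Real.log 25 < 33 / 10 := by
  have h : Real.log 25 = 2 * Real.log 5 := by
    rw [show (25 : ℝ) = 5 ^ 2 by norm_num, Real.log_pow]; norm_num
  have h5 : Real.log 5 < 165 / 100 := by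
    rw [Real.log_lt_iff_lt_exp (by norm_num)]
    have h1 : (2.7182 : ℝ) < Real.exp 1 := by
      have := Real.exp_one_gt_d9; linarith
    have h2 : Real.exp (165 / 100) = Real.exp 1 * Real.exp (65 / 100) := by
      rw [← Real.exp_add]; norm_num
    have h3 : (1.86 : ℝ) ≤ Real.exp (65 / 100) := by
      have := Real.quadratic_le_exp_of_nonneg (show (0 : ℝ) ≤ 65 / 100 by norm_num)
      norm_num at this ⊢
      linarith
    rw [h2]
    nlinarith [Real.exp_pos 1]
  linarith

/-- index sets containing the diagonal -/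
theorem exists_index (m n : ℕ) (h1 : m ≤ n) (h2 : n ≤ m ^ 2) :
    ∃ e : Fin n → Idx m, Function.Injective e ∧ ∀ a : Fin m, ∃ j, e j = (a, a) := by
  classical
  set D : Finset (Idx m) := Finset.univ.filter fun i => i.1 = i.2 with hD
  have hDc : D.card = m := by
    have := card_diag m
    rw [Fintype.card_subtype] at this
    exact this
  obtain ⟨K, hDK, -, hK⟩ := Finset.exists_subsuperset_card_eq (Finset.subset_univ D)
    (n := n) (by rw [hDc]; exact h1) (by
      rw [Finset.card_univ, Fintype.card_prod, Fintype.card_fin, ← pow_two]; exact h2)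
  let E : Fin n ≃ K := (Finset.equivFinOfCardEq hK).symm
  refine ⟨fun j => (E j).1, fun i j hij => E.injective (Subtype.ext hij), fun a => ?_⟩
  have ha : (a, a) ∈ K := hDK (by rw [hD, Finset.mem_filter]; exact ⟨Finset.mem_univ _, rfl⟩)
  refine ⟨E.symm ⟨(a, a), ha⟩, ?_⟩
  show (E (E.symm ⟨(a, a), ha⟩)).1 = (a, a)
  rw [Equiv.apply_symm_apply]

theorem main (n : ℕ) (hn : (8 * 10 ^ 24 + 2) ^ 2 ≤ n) :
    ∃ (H : Type) (_ : NormedAddCommGroup H) (_ : InnerProductSpace ℂ H) (_ : CompleteSpace H),
      FreeGroupGap H n := by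
  set s : ℕ := Nat.sqrt n with hs
  have hs1 : s * s ≤ n := Nat.sqrt_le n
  have hs2 : n < (s + 1) * (s + 1) := Nat.lt_succ_sqrt n
  have hs3 : 8 * 10 ^ 24 + 2 ≤ s := by
    rw [hs, Nat.le_sqrt]
    rw [← pow_two]
    exact hn
  set m : ℕ := s + 1 with hm
  have hmn : m ≤ n := by nlinarith
  obtain ⟨e, he, hdiag⟩ := exists_index m n hmn (by rw [pow_two]; exact hs2.le)
  choose d hd using hdiag
  have hsR : (8 * 10 ^ 24 + 2 : ℝ) ≤ s := by exact_mod_cast hs3
  have hmR : (m : ℝ) = s + 1 := by rw [hm]; push_cast; ring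
  set θ : ℝ := Real.sqrt (8 / s) with hθ
  set c : ℝ := 1 / 8000 with hc
  have hspos : (0 : ℝ) < s := by linarith
  have hcpos : 0 < c := by rw [hc]; norm_num
  have hθpos : 0 < θ := Real.sqrt_pos.2 (by positivity)
  have hθsq : θ ^ 2 = 8 / s := Real.sq_sqrt (by positivity)
  have hθle : θ ≤ 1 / 10 ^ 12 := by
    rw [hθ, Real.sqrt_le_left (by positivity), div_le_iff₀ hspos]
    norm_num
    linarith
  have hmθ : ((m : ℝ) - 1) * θ ^ 2 = 8 := by
    rw [hmR, hθsq]
    field_simp
    ring
  have hcd := card_diag' e he d hd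
  have hcard : Fintype.card (Fin n) = n := Fintype.card_fin n
  have hm0 : 0 < m := by omega
  have hlaw : law (vac (Big m)) (fun j => tupX m c θ (e j)) =
      fun w : List (Fin n) => lawX m c θ 0 (w.map e) := by
    funext w
    rw [law_reindex]
    have h := law_tupX m c θ (le_refl (0 : ℝ)) (w.map e)
    have e0 : (fun i => tupX m c θ i + ((Real.sqrt 0 : ℝ) : ℂ) • tupS m i) = tupX m c θ := by
      funext i
      simp
    rw [e0] at h
    exact h
  have hstar : chiStar (fun t => law (vac (Big m))
        (fun j => tupX m c θ (e j) + ((Real.sqrt t : ℝ) : ℂ) • tupS m (e j)))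
      = chiStar (fun t => fun w : List (Fin n) => lawX m c θ t (w.map e)) := by
    refine chiStar_congr fun t ht => ?_
    funext w
    rw [← law_tupX m c θ ht.le, ← law_reindex]
  have hfree := IsFreeSemicircularFrom_sub e he (isFreeFrom_tupX m c θ)
  have hst := isFNTState (Big m)
  refine ⟨Fock (Big m), inferInstance, inferInstance, inferInstance,
    FreeGroupGap.intro (vna (Big m)) (vac (Big m)) (fun j => tupT m (e j))
      (fun j => tupX m c θ (e j)) (fun j => tupS m (e j))
      ⟨hst.map_one, hst.tracial, hst.faithful⟩ ⟨hst.normal⟩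
      (isFreeSemicircular_tupT m e he) (fun j => tupX_selfAdjoint m c θ (e j)) ?_
      (adjoin_eq e d hd c θ hcpos.ne')
      ⟨hfree.selfAdjoint, hfree.even, hfree.odd, hfree.free⟩ ?_ ?_⟩
  · refine ⟨c, θ, {j | (e j).1 = (e j).2}, hcpos, hθpos, ?_, ?_⟩
    · intro j hj
      rcases hab : e j with ⟨a, b⟩
      have h1 : a = b := by
        have : (e j).1 = (e j).2 := hj
        rw [hab] at this
        exact this
      subst h1
      simp only [hab]
      exact tupX_diag m c θ a
    · intro j hj
      rcases hab : e j with ⟨a, b⟩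
      have h1 : a ≠ b := by
        intro h
        apply hj
        show (e j).1 = (e j).2
        rw [hab]
        exact h
      refine ⟨d a, ?_, d b, ?_, ?_, ?_⟩
      · show (e (d a)).1 = (e (d a)).2
        rw [hd]
      · show (e (d b)).1 = (e (d b)).2
        rw [hd]
      · intro h
        have := congrArg e h
        rw [hd, hd] at this
        exact h1 (congrArg Prod.fst this)
      · simp only [hab, hd]
        exact tupX_off m c θ a b h1
  · rw [FD.chi_eq]
    show ⊥ < chi (law (vac (Big m)) (fun j => tupX m c θ (e j)))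
    rw [hlaw]
    exact bot_lt_chi_inj e he _ (bot_lt_chi m hm0 c θ hcpos)
  · rw [FD.chi_eq]
    show chi (law (vac (Big m)) (fun j => tupX m c θ (e j))) + ((Real.sqrt n : ℝ) : EReal) <
      chiStar (fun t => law (vac (Big m))
        (fun j => tupX m c θ (e j) + ((Real.sqrt t : ℝ) : ℂ) • tupS m (e j)))
    rw [hlaw, hstar]
    have h1 := chi_sub_le e he d hd c θ hcpos
    have h2 := chiStar_sub_ge m e he hcd c θ hθpos hθle hc hmθ
    rw [hcard] at h1 h2
    refine lt_of_le_of_lt (add_le_add_left h1 _) (lt_of_lt_of_le ?_ h2)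
    rw [← EReal.coe_add, EReal.coe_lt_coe_iff]
    have hlog := log_25_lt'
    have hsq : Real.sqrt n < s + 1 := by
      rw [Real.sqrt_lt' (by linarith)]
      have : (n : ℝ) < (s + 1) * (s + 1) := by exact_mod_cast hs2
      nlinarith
    have hns : (s : ℝ) * s ≤ n := by exact_mod_cast hs1
    have h3 : 8 * (s - 2 : ℝ) ≤ ((n : ℝ) - m) * θ ^ 2 := by
      rw [hθsq, hmR, mul_div_assoc', le_div_iff₀ hspos]
      nlinarith
    have h4 : (m : ℝ) * Real.log 25 ≤ (s + 1) * (33 / 10) := by
      rw [hmR]
      exact mul_le_mul_of_nonneg_left hlog.le (by linarith)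
    have h5 : (8 * (s - 2 : ℝ)) * (99 / 100) / (1 + 1 / 4) ≤
        ((n : ℝ) - m) * θ ^ 2 * (99 / 100) / (1 + 1 / 4) := by
      gcongr
    have key : Real.sqrt n <
        1 / 2 * (((n : ℝ) - m) * θ ^ 2 * (99 / 100) / (1 + 1 / 4) - m * Real.log 25) := by
      norm_num at h5 ⊢
      linarith
    linarith

end Vale.Agent.P087.H847
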