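import Vale.Agent.P087.Bdl.B2

/-! P087, strengthening (helper847): passing to sub-tuples. Free Fisher information. -/

open MeasureTheory Filter
open scoped ENNReal NNReal

namespace Vale.Agent.P087.H847

open Vale.Agent.P087

section Inj

variable {ι κ : Type} [Fintype ι] [DecidableEq ι] [Fintype κ] [DecidableEq κ]

theorem dqWord_inj (e : κ → ι) (he : Function.Injective e) (μ : List ι → ℂ) (j : κ) (w : List κ) :
    dqWord (fun w : List κ => μ (w.map e)) j w = dqWord μ (e j) (w.map e) := by
  unfold dqWord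
  refine Fintype.sum_equiv (finCongr (List.length_map e).symm) _ _ fun l => ?_
  simp [List.map_take, List.map_drop, he.eq_iff]

theorem dq_inj (e : κ → ι) (he : Function.Injective e) (μ : List ι → ℂ) (j : κ)
    (p : List κ →₀ ℂ) :
    dq (fun w : List κ => μ (w.map e)) j p = dq μ (e j) (p.mapDomain (List.map e)) := by
  unfold dq
  rw [Finsupp.sum_mapDomain_index]
  · refine Finsupp.sum_congr fun w _ => ?_
    rw [dqWord_inj e he]
  · intro w; simp
  · intro w a b; ring

theorem normSq_inj (e : κ → ι) (μ : List ι → ℂ) (p : List κ →₀ ℂ) :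
    normSq (fun w : List κ => μ (w.map e)) p = normSq μ (p.mapDomain (List.map e)) := by
  unfold normSq
  congr 1
  rw [Finsupp.sum_mapDomain_index]
  · refine Finsupp.sum_congr fun v _ => ?_
    rw [Finsupp.sum_mapDomain_index]
    · refine Finsupp.sum_congr fun w _ => ?_
      simp [List.map_reverse]
    · intro w; simp
    · intro w a b; ring
  · intro w; simp
  · intro w a b
    rw [← Finsupp.sum_add]
    refine Finsupp.sum_congr fun v _ => ?_
    rw [map_add]; ring

/-- The conjugate variable of a sub-tuple has smaller norm. -/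
theorem conjNormSq_inj_le (e : κ → ι) (he : Function.Injective e) (μ : List ι → ℂ) (j : κ) :
    conjNormSq (fun w : List κ => μ (w.map e)) j ≤ conjNormSq μ (e j) := by
  unfold conjNormSq
  refine le_iInf₂ fun C hC => ?_
  refine iInf₂_le_of_le C (fun p => ?_) le_rfl
  rw [dq_inj e he, normSq_inj]
  exact hC _

end Inj

/-! ### Free Fisher information along the heat flow, general `θ` -/

/-- off-diagonal coordinates, good bound for `t ≥ 1/4`, every `θ ≤ 10⁻¹²` -/
theorem conjNormSq_offdiag_le2 (m : ℕ) (c θ t : ℝ) (hθ0 : 0 ≤ θ) (hθ : θ ≤ 1 / 10 ^ 12)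
    (hc : c = 1 / 8000) (hm : ((m : ℝ) - 1) * θ ^ 2 ≤ 8) (ht : 1 / 4 ≤ t)
    (a b : Fin m) (hab : a ≠ b) :
    conjNormSq (lawX m c θ t) (a, b) ≤
      ENNReal.ofReal (1 / (1 + t) * (1 - θ ^ 2 / (1 + t) * (99 / 100))) := by
  have ht0 : 0 < t := by linarith
  have hc0 : 0 ≤ c := by rw [hc]; positivity
  have hs1 : 1 ≤ Real.sqrt (1 + t) := by
    rw [Real.one_le_sqrt]; linarith
  have hs2 : 1 / 2 ≤ Real.sqrt t := by
    apply Real.le_sqrt_of_sq_le
    norm_num
    linarith
  have hK : ∀ D, ∑ l ∈ Finset.range (D + 1), ∑ w ∈ wl (Idx m) l,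
      gc (fun i => coef m c θ i / sig m t i) [a, b, a] w ^ 2 ≤ 1 / 100 := by
    intro D
    refine sum_gc_sq_le _ θ ?_ ?_ ?_ hθ0 hθ hm a b hab D
    · intro i
      refine div_nonneg ?_ (sig_pos m t ht0 i).le
      unfold coef
      split_ifs <;> assumption
    · intro a
      rw [coef_diag, sig_diag, div_le_iff₀ (by linarith), hc]
      linarith
    · intro a b hab
      rw [coef_off m c θ a b hab, sig_off m t a b hab]
      exact div_le_self hθ0 hs1
  have hθ2 : θ ^ 2 ≤ 1 := by
    have : θ ≤ 1 := hθ.trans (by norm_num)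
    nlinarith
  have h0 : 0 ≤ 1 / (1 + t) * (1 - θ ^ 2 / (1 + t) * (99 / 100)) := by
    have h1 : θ ^ 2 / (1 + t) ≤ 1 := by
      rw [div_le_one (by linarith)]
      linarith
    have h2 : 0 ≤ 1 - θ ^ 2 / (1 + t) * (99 / 100) := by
      have : 0 ≤ θ ^ 2 / (1 + t) := by positivity
      linarith
    positivity
  refine conjNormSq_le_of_vec (coef m c θ) (sig m t) (a, b)
    (Real.toNNReal (1 / (1 + t) * (1 - θ ^ 2 / (1 + t) * (99 / 100)))) (fun D => ?_)
  obtain ⟨η, h1, h2⟩ := vec_offdiag (coef m c θ) (sig m t) (fun i => (sig_pos m t ht0 i).ne')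
    a b hab (1 / 100) hK D
  refine ⟨η, h1, h2.trans (le_of_eq ?_)⟩
  rw [Real.coe_toNNReal _ h0, coef_off m c θ a b hab, sig_off m t a b hab,
    Real.sq_sqrt (by positivity)]
  field_simp
  ring

/-- Lower bound for `χ^*` of the sub-tuple indexed by `e : κ ↪ Idx m` containing the diagonal. -/
theorem chiStar_sub_ge {κ : Type} [Fintype κ] [DecidableEq κ] (m : ℕ) (e : κ → Idx m)
    (he : Function.Injective e) (hdiag : Fintype.card {j : κ // (e j).1 = (e j).2} = m)
    (c θ : ℝ) (hθ0 : 0 < θ) (hθ : θ ≤ 1 / 10 ^ 12) (hc : c = 1 / 8000)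
    (hm : ((m : ℝ) - 1) * θ ^ 2 = 8) :
    (((m : ℝ) / 2 * Real.log (2 * Real.pi * Real.exp 1 * c ^ 2)
        + ((Fintype.card κ : ℝ) - m) / 2 * Real.log (2 * Real.pi * Real.exp 1)
        + (1 / 2) * (((Fintype.card κ : ℝ) - m) * θ ^ 2 * (99 / 100) / (1 + 1 / 4)
          - m * Real.log 25) : ℝ) : EReal)
      ≤ chiStar (fun t => fun w : List κ => lawX m c θ t (w.map e)) := by
  have hc0 : 0 < c := by rw [hc]; norm_num
  have hm1 : (1 : ℝ) < m := by
    by_contra h
    push Not at h
    have : ((m : ℝ) - 1) * θ ^ 2 ≤ 0 := mul_nonpos_of_nonpos_of_nonneg (by linarith) (by positivity)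
    linarith
  set n : ℝ := (Fintype.card κ : ℝ) with hn
  have hnm : (m : ℝ) ≤ n := by
    rw [hn, ← hdiag]
    exact_mod_cast Fintype.card_subtype_le _
  have hmm : (0 : ℝ) ≤ n - m := by linarith
  set g : ℝ := c ^ 2 / 25 with hgdef
  have hg : 0 < g := by positivity
  have hg1 : g ≤ 1 := by rw [hgdef, hc]; norm_num
  set D : ℝ := θ ^ 2 * (99 / 100) with hD
  have hθ2 : θ ^ 2 ≤ 1 := by
    have : θ ≤ 1 := hθ.trans (by norm_num)
    nlinarith
  have hD1 : D ≤ 1 := by rw [hD]; linarith
  have hD0 : 0 ≤ D := by positivity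
  let U : ℝ → ℝ := fun t => (m : ℝ) * (1 / (t + g)) + (n - m) * (1 / (1 + t)) -
    (Set.Ioi (1 / 4 : ℝ)).indicator (fun t => (n - m) * D * (1 / (1 + t) ^ 2)) t
  have hUeq : ∀ t, n / (1 + t) - U t =
      (m : ℝ) * (1 / (1 + t) - 1 / (t + g)) +
      (Set.Ioi (1 / 4 : ℝ)).indicator (fun t => (n - m) * D * (1 / (1 + t) ^ 2)) t := by
    intro t
    simp only [U]
    ring
  obtain ⟨hi1, he1⟩ := integral_inv_sub_inv g hg hg1
  obtain ⟨hi2, he2⟩ := integral_inv_sq (1 / 4) (by norm_num)
  have hU0 : ∀ t, 0 < t → 0 ≤ U t := by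
    intro t ht
    simp only [U]
    have h1 : 0 ≤ (m : ℝ) * (1 / (t + g)) := by positivity
    have h2 : 0 ≤ (n - m) * (1 / (1 + t)) := by positivity
    by_cases hmem : t ∈ Set.Ioi (1 / 4 : ℝ)
    · rw [Set.indicator_of_mem hmem]
      have h3 : (n - m) * D * (1 / (1 + t) ^ 2) ≤ (n - m) * (1 / (1 + t)) := by
        rw [mul_assoc]
        apply mul_le_mul_of_nonneg_left _ hmm
        rw [one_div, one_div, ← div_eq_mul_inv, div_le_iff₀ (by positivity)]
        have : (1 + t)⁻¹ * (1 + t) ^ 2 = 1 + t := by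
          have : (1 + t) ≠ 0 := by positivity
          field_simp
        rw [this]
        linarith
      linarith
    · rw [Set.indicator_of_notMem hmem]
      linarith
  have hF : ∀ t, 0 < t → fisher (fun w : List κ => lawX m c θ t (w.map e)) ≤
      ENNReal.ofReal (U t) := by
    intro t ht
    set q : ℝ := 1 / (1 + t) - (Set.Ioi (1 / 4 : ℝ)).indicator (fun t => D * (1 / (1 + t) ^ 2)) t
      with hq
    have hb' : ∀ j : Idx m, conjNormSq (lawX m c θ t) j ≤
        ENNReal.ofReal (q + if j.1 = j.2 then 1 / (t + g) - q else 0) := by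
      rintro ⟨a, b⟩
      by_cases hab : a = b
      · subst hab
        have h := conjNormSq_diag_le m c θ t hc0 hθ0.le ht a
        rw [hm] at h
        refine h.trans (ENNReal.ofReal_le_ofReal ?_)
        simp only [if_true]
        rw [hgdef]
        norm_num
      · simp only [if_neg hab, add_zero]
        by_cases hmem : t ∈ Set.Ioi (1 / 4 : ℝ)
        · have h := conjNormSq_offdiag_le2 m c θ t hθ0.le hθ hc hm.le (le_of_lt hmem) a b hab
          refine h.trans (ENNReal.ofReal_le_ofReal (le_of_eq ?_))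
          rw [hq, Set.indicator_of_mem hmem, hD]
          have : (1 + t) ≠ 0 := by positivity
          field_simp
        · have h := conjNormSq_offdiag_le m c θ t hc0 hθ0.le ht a b hab
          refine h.trans (ENNReal.ofReal_le_ofReal (le_of_eq ?_))
          rw [hq, Set.indicator_of_notMem hmem, sub_zero]
    have hb : ∀ j : κ, conjNormSq (fun w : List κ => lawX m c θ t (w.map e)) j ≤
        ENNReal.ofReal (q + if (e j).1 = (e j).2 then 1 / (t + g) - q else 0) := fun j =>
      (conjNormSq_inj_le e he (lawX m c θ t) j).trans (hb' (e j))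
    have hqnn : 0 ≤ q := by
      rw [hq]
      by_cases hmem : t ∈ Set.Ioi (1 / 4 : ℝ)
      · rw [Set.indicator_of_mem hmem]
        have h3 : D * (1 / (1 + t) ^ 2) ≤ (1 / (1 + t)) := by
          rw [one_div, one_div, ← div_eq_mul_inv, div_le_iff₀ (by positivity)]
          have : (1 + t)⁻¹ * (1 + t) ^ 2 = 1 + t := by
            have : (1 + t) ≠ 0 := by positivity
            field_simp
          rw [this]
          linarith
        linarith
      · rw [Set.indicator_of_notMem hmem, sub_zero]
        positivity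
    calc fisher (fun w : List κ => lawX m c θ t (w.map e))
        = ∑ j, conjNormSq (fun w : List κ => lawX m c θ t (w.map e)) j := rfl
      _ ≤ ∑ j : κ, ENNReal.ofReal (q + if (e j).1 = (e j).2 then 1 / (t + g) - q else 0) :=
        Finset.sum_le_sum fun j _ => hb j
      _ = ENNReal.ofReal (∑ j : κ, (q + if (e j).1 = (e j).2 then 1 / (t + g) - q else 0)) := by
        rw [ENNReal.ofReal_sum_of_nonneg]
        intro j _
        split_ifs
        · have : 0 ≤ 1 / (t + g) := by positivity
          linarith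
        · linarith
      _ = ENNReal.ofReal (U t) := by
        congr 1
        have hcd : ((Finset.univ.filter fun j : κ => (e j).1 = (e j).2).card : ℝ) = m := by
          have h1 := hdiag
          rw [Fintype.card_subtype] at h1
          exact_mod_cast h1
        rw [Finset.sum_add_distrib, Finset.sum_const, Finset.card_univ, nsmul_eq_mul,
          ← Finset.sum_filter, Finset.sum_const, nsmul_eq_mul, hcd, ← hn]
        simp only [U]
        rw [hq]
        by_cases hmem : t ∈ Set.Ioi (1 / 4 : ℝ)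
        · rw [Set.indicator_of_mem hmem, Set.indicator_of_mem hmem]
          ring
        · rw [Set.indicator_of_notMem hmem, Set.indicator_of_notMem hmem]
          ring
  have hsub : Set.Ioi (1 / 4 : ℝ) ⊆ Set.Ioi 0 := Set.Ioi_subset_Ioi (by norm_num)
  have hinter : Set.Ioi (0 : ℝ) ∩ Set.Ioi (1 / 4 : ℝ) = Set.Ioi (1 / 4 : ℝ) :=
    Set.inter_eq_self_of_subset_right hsub
  have hI1 : IntegrableOn (fun t : ℝ => (m : ℝ) * (1 / (1 + t) - 1 / (t + g))) (Set.Ioi 0) :=
    hi1.const_mul _
  have hI2 : IntegrableOn (fun t : ℝ => (n - m) * D * (1 / (1 + t) ^ 2))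
      (Set.Ioi (1 / 4)) := hi2.const_mul _
  have hI3 : IntegrableOn ((Set.Ioi (1 / 4 : ℝ)).indicator
      (fun t => (n - m) * D * (1 / (1 + t) ^ 2))) (Set.Ioi 0) := by
    rw [IntegrableOn, integrable_indicator_iff measurableSet_Ioi, IntegrableOn,
      Measure.restrict_restrict measurableSet_Ioi, Set.inter_comm, hinter]
    exact hI2
  have hint : IntegrableOn (fun t => n / (1 + t) - U t) (Set.Ioi 0) := by
    refine (hI1.add hI3).congr (ae_of_all _ fun t => ?_)
    simp only [Pi.add_apply]
    rw [hUeq t]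
  have hval : ∫ t in Set.Ioi (0 : ℝ), (n / (1 + t) - U t) =
      m * Real.log g + (n - m) * D * (1 / (1 + 1 / 4)) := by
    simp_rw [hUeq]
    rw [integral_add hI1 hI3, integral_const_mul, he1, integral_indicator measurableSet_Ioi,
      Measure.restrict_restrict measurableSet_Ioi, Set.inter_comm, hinter, integral_const_mul, he2]
  have hmain := chiStar_ge (fun t => fun w : List κ => lawX m c θ t (w.map e)) U hU0 hF hint
  refine le_trans (le_of_eq ?_) hmain
  rw [← hn, hval]
  congr 1
  have hlog1 : Real.log (2 * Real.pi * Real.exp 1 * c ^ 2) =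
      Real.log (2 * Real.pi * Real.exp 1) + Real.log (c ^ 2) :=
    Real.log_mul (by positivity) (by positivity)
  have hlog2 : Real.log g = Real.log (c ^ 2) - Real.log 25 := by
    rw [hgdef, Real.log_div (by positivity) (by norm_num)]
  rw [hlog1, hlog2, hD]
  ring

end Vale.Agent.P087.H847
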